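import Vale.Agent.P014U.X4F.Rec.Kum

/-!
# P014U, block SY: the exponential on the adic numbers modulo the integers
-/

set_option linter.all false

noncomputable section

namespace Vale.Agent.P014U.Sy

open Vale.Agent.P022 Vale.Agent.P022K
open Vale.Agent.P014U.X4S.Ga (K O mem_O)
open Vale.Agent.P014U.X4S.Aq
open Vale.Agent.P014U.X4F.Rc (hn hn_mul O_nat apx nat_iff lc_act nz_pw)

variable [Pp]

/-- iterated roots of a primitive root of unity -/
def zs : ℕ → Qb
  | 0 => G2.zt pp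
  | n + 1 => G2.rt pp (zs n)

theorem zs_add (n k : ℕ) : zs (n + k) ^ pp ^ k = zs n := by
  induction k with
  | zero => simp
  | succ k ih =>
    rw [pow_succ', pow_mul, ← ih]
    exact congrArg (· ^ pp ^ k) (G2.rt_pow pp _)

theorem zs_prim (n : ℕ) : IsPrimitiveRoot (zs n) (pp ^ (n + 1)) := by
  have e : zs n ^ pp ^ n = G2.zt pp := by simpa [zs] using zs_add 0 n
  rw [← orderOf_eq_prime_pow (x := zs n) (p := pp) (n := n)
    (by rw [e]; exact (G2.zt_prim pp).ne_one one_lt) (by rw [pow_succ, pow_mul, e, G2.zt_pow])]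
  exact IsPrimitiveRoot.orderOf _

theorem lev_up {x : K} {k n : ℕ} (h : (pp : K) ^ k * x ∈ O) (e : k ≤ n) : (pp : K) ^ n * x ∈ O := by
  obtain ⟨j, rfl⟩ := Nat.exists_eq_add_of_le e
  exact O_of (O_mul (O_pow j) h) (by ring)

theorem lev_ex (x : K) : ∃ k : ℕ, (pp : K) ^ k * x ∈ O :=
  (bdd (isCompact_singleton (x := x)) continuousOn_id).imp fun _ h => h x rfl

theorem lev_apx {x : K} {n : ℕ} (h : (pp : K) ^ n * x ∈ O) : ∃ m : ℕ, x - hn n * m ∈ O :=
  (apx n h).imp fun _ e => O_of e (by linear_combination (-x) * hn_mul n)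

theorem ex_nm (x : K) : ∃ p : ℕ × ℕ, x - hn (p.1 + 1) * p.2 ∈ O :=
  let ⟨k, h⟩ := lev_ex x
  let ⟨m, e⟩ := lev_apx (lev_up h k.le_succ)
  ⟨(k, m), e⟩

/-- the exponential -/
def ex (x : K) : Qb := zs (ex_nm x).choose.1 ^ (ex_nm x).choose.2

theorem mod_of {N a b : ℕ} (h : hn N * (a - b) ∈ O) : a ≡ b [MOD pp ^ N] := by
  have := (dv_iff N ((a : ℤ_[pp]) - b)).2 (by simpa [hn] using h)
  rwa [map_sub, map_natCast, map_natCast, sub_eq_zero, ZMod.natCast_eq_natCast_iff] at this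

theorem hn_add (n k : ℕ) : hn (n + k) * pp ^ k = hn n := by
  have := pk_ne
  simp only [hn]
  field_simp
  ring

theorem ex_spec {x : K} {n m : ℕ} (h : x - hn (n + 1) * m ∈ O) : ex x = zs n ^ m := by
  have k := (ex_nm x).choose_spec
  unfold ex
  generalize (ex_nm x).choose.1 = n', (ex_nm x).choose.2 = m' at k
  rw [← zs_add n n', ← zs_add n' n, add_comm n' n, ← pow_mul, ← pow_mul]
  refine pow_eq_pow_of_modEq (mod_of (O_of (sub_mem h k) ?_)) (zs_prim _).pow_eq_one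
  have a := hn_add (n + 1) n'
  have b := hn_add (n' + 1) n
  rw [show n + 1 + n' = n + n' + 1 by ring] at a
  rw [show n' + 1 + n = n + n' + 1 by ring] at b
  push_cast
  linear_combination m' * b - m * a

variable {x y : K} {n : ℕ}

theorem ex_add (x y : K) : ex (x + y) = ex x * ex y := by
  obtain ⟨k, h⟩ := lev_ex x
  obtain ⟨k', h'⟩ := lev_ex y
  obtain ⟨m, e⟩ := lev_apx (lev_up h (show k ≤ k + k' + 1 by omega))
  obtain ⟨m', e'⟩ := lev_apx (lev_up h' (show k' ≤ k + k' + 1 by omega))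
  rw [ex_spec e, ex_spec e', ← pow_add]
  exact ex_spec (O_of (add_mem e e') (by push_cast; ring))

theorem ex_one : ex x = 1 ↔ x ∈ O := by
  obtain ⟨⟨k, m⟩, h⟩ := ex_nm x
  rw [ex_spec h, (zs_prim k).pow_eq_one_iff_dvd, ← nat_iff]
  exact ⟨fun e => O_of (add_mem h e) (by ring), fun e => O_of (sub_mem e h) (by ring)⟩

theorem ex_zero : ex 0 = 1 := ex_one.2 (zero_mem _)

theorem ex_ne (x : K) : ex x ≠ 0 :=
  left_ne_zero_of_mul_eq_one (by rw [← ex_add, add_neg_cancel, ex_zero])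

theorem ex_neg (x : K) : ex (-x) = (ex x)⁻¹ :=
  eq_inv_of_mul_eq_one_left (by rw [← ex_add, neg_add_cancel, ex_zero])

theorem ex_sub (x y : K) : ex (x - y) = ex x / ex y := by
  rw [sub_eq_add_neg, ex_add, ex_neg, div_eq_mul_inv]

theorem ex_eq : ex x = ex y ↔ x - y ∈ O := by
  rw [← ex_one, ex_sub, div_eq_one_iff_eq (ex_ne y)]

theorem ex_nat (m : ℕ) (x : K) : ex (m * x) = ex x ^ m := by
  induction m with
  | zero => simp [ex_zero]
  | succ m ih => rw [Nat.cast_succ, add_mul, one_mul, ex_add, ih, pow_succ]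

theorem ex_sum {ι : Type} (s : Finset ι) (f : ι → K) : ex (∑ i ∈ s, f i) = ∏ i ∈ s, ex (f i) := by
  classical
  induction s using Finset.induction_on with
  | empty => simp [ex_zero]
  | insert a s ha ih => rw [Finset.sum_insert ha, Finset.prod_insert ha, ex_add, ih]

theorem ex_root : ex x ^ pp ^ n = 1 ↔ (pp : K) ^ n * x ∈ O := by
  rw [← ex_nat, ex_one]
  push_cast
  rfl

theorem ex_cy (g : GQ) (x : K) : g (ex x) = ex (cy g * x) := by
  obtain ⟨k, h⟩ := lev_ex x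
  rw [cz_spec g (ex_root.2 h), ← ex_nat, ex_eq]
  have := (dv_iff k ((PadicInt.toZModPow k (cz g : ℤ_[pp])).val - cz g)).1 (by simp)
  refine O_of (O_mul this h) ?_
  rw [PadicInt.coe_sub, PadicInt.coe_natCast, ← cy_apply]
  have := pk_ne
  field_simp

theorem ex_prim' (n : ℕ) : IsPrimitiveRoot (ex (hn n)) (pp ^ n) :=
  ⟨ex_root.2 (O_of O_one (hn_mul n)), fun m h => by
    rw [← ex_nat, ex_one, mul_comm] at h
    exact (nat_iff n m).1 h⟩

theorem ex_onto {η : Qb} (h : η ^ pp ^ n = 1) : ∃ m : ℕ, η = ex (hn n * m) := by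
  obtain ⟨m, -, rfl⟩ := (ex_prim' n).eq_pow_of_pow_eq_one h
  exact ⟨m, by rw [← ex_nat, mul_comm]⟩

theorem ex_zt : ex (pp : K)⁻¹ = G2.zt pp := by
  simpa [zs] using ex_spec (x := (pp : K)⁻¹) (n := 0) (m := 1) (by simp [hn])

open Classical in
/-- the logarithm of a root of unity -/
def lg (η : Qb) : K := if h : ∃ x, ex x = η then h.choose else 0

theorem ex_lg {η : Qb} (h : η ^ pp ^ n = 1) : ex (lg η) = η := by
  have : ∃ x, ex x = η := (ex_onto h).elim fun _ e => ⟨_, e.symm⟩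
  rw [lg, dif_pos this]
  exact this.choose_spec

theorem lg_lev {η : Qb} (h : η ^ pp ^ n = 1) : (pp : K) ^ n * lg η ∈ O := by
  rwa [← ex_root, ex_lg h]

/-- the Kummer function of `β` -/
def ku (β : Qb) (g : GQ) : K := lg (g β / β)

theorem ku_cont (β : Qb) : Continuous (ku β) :=
  ((lc_act β).comp fun γ => lg (γ / β)).continuous

theorem ku_spec {β : Qb} (h0 : β ≠ 0) {g : GQ} (h : g (β ^ pp ^ n) = β ^ pp ^ n) :
    g β = ex (ku β g) * β ∧ (pp : K) ^ n * ku β g ∈ O := by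
  have : (g β / β) ^ pp ^ n = 1 := by rw [div_pow, ← map_pow, h, div_self (pow_ne_zero _ h0)]
  exact ⟨by rw [ku, ex_lg this, div_mul_cancel₀ _ h0], lg_lev this⟩

theorem ku_coc {β : Qb} (h0 : β ≠ 0) {g j : GQ} (hg : g (β ^ pp ^ n) = β ^ pp ^ n)
    (hj : j (β ^ pp ^ n) = β ^ pp ^ n) : ku β (g * j) - ku β g - cy g * ku β j ∈ O := by
  have e := (ku_spec (g := g * j) h0 (by rw [AlgEquiv.mul_apply, hj, hg])).1
  rw [AlgEquiv.mul_apply, (ku_spec h0 hj).1, map_mul, ex_cy, (ku_spec h0 hg).1, ← mul_assoc,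
    ← ex_add] at e
  exact O_of (ex_eq.1 (mul_right_cancel₀ h0 e).symm) (by ring)

end Vale.Agent.P014U.Sy
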